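import Vale.Agent.P284.H206.K.B8
import Vale.Agent.P284.H206.Sp.A7

/-!
# P284 (helper500), project D: the normal form of a Bogomolov sheaf on a compact Kähler manifold
-/

open scoped Manifold ContDiff Topology ComplexOrder ComplexConjugate Matrix
open Filter Set MeasureTheory

noncomputable section

namespace Vale.Agent.P284.H500.D

open Vale.Agent.P272.K Vale.Agent.P284.H248 Vale.Agent.P284.H206.Bog Vale.Agent.P284.H206.Sp

section linear
variable {n r : ℕ}

/-- two families of vectors, for forms `Φ` with `θ_a ∧ Φ = 0` -/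
theorem form_cross {θ : Fin (r + 1) → Cm n →ₗ[ℂ] ℂ} {Φ : (Cm n) [⋀^Fin (r + 1)]→ₗ[ℂ] ℂ}
    (h : ∀ a, wd (θ a) Φ = 0) (E ξ : Fin (r + 1) → Cm n) :
    Φ ξ * (Matrix.of fun a b => θ a (E b)).det = Φ E * (Matrix.of fun a b => θ a (ξ b)).det := by
  by_cases hE : (Matrix.of fun a b => θ a (E b)).det = 0
  · by_cases hξ : (Matrix.of fun a b => θ a (ξ b)).det = 0
    · rw [hE, hξ, mul_zero, mul_zero]
    · obtain ⟨E', hE'⟩ := indep_of_dual hξ
      have h2 := divide h hE' E
      rw [hE, mul_zero, h2, hE, mul_zero, zero_mul]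
  · obtain ⟨E', hE'⟩ := indep_of_dual hE
    have h1 := divide h hE' ξ
    have h2 := divide h hE' E
    rw [h1, h2]
    ring

end linear

variable {n r : ℕ} {X : Type} [TopologicalSpace X] [ChartedSpace (Cm n) X]
  [IsManifold 𝓘(ℂ, Cm n) ω X] {L : LineBundle n X} {k : ℕ}
  {W : Chart n X → Cm n → Matrix (Fin n) (Fin n) ℂ}

/-- the values of `φ` on two families of vectors -/
theorem dec_pt [T2Space X] [CompactSpace X] (hw : IsKahler W) (φ : Mor L (r + 1)) (hk : k ≠ 0)
    (s : Fin (r + 1 + 1) → Sec L k) {i : L.ι} {e : Chart n X} {x : X} (he : At e x) (hi : x ∈ L.U i)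
    (hs : (s 0).f i x ≠ 0) (E ξ : Fin (r + 1) → Cm n) :
    φ.form i e (e x) ξ * (Matrix.of fun a b => dq (s 0) (s a.succ) i e (e x) (E b)).det =
      φ.form i e (e x) E * (Matrix.of fun a b => dq (s 0) (s a.succ) i e (e x) (ξ b)).det :=
  form_cross (θ := fun a => (dq (s 0) (s a.succ) i e (e x)).toLinearMap)
    (fun a => Vale.Agent.P284.H206.K.Om_zero hw φ hk (s 0) (s a.succ) he hi hs) E ξ

omit [IsManifold 𝓘(ℂ, Cm n) ω X] in
/-- the derivative of the ratios -/
theorem rb_fderiv {s : Fin (r + 1 + 1) → Sec L k} {i : L.ι} {e : Chart n X} {z : Cm n}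
    (hz : DifferentiableAt ℂ (rb s i e) z) (v : Cm n) (a : Fin (r + 1)) :
    fderiv ℂ (rb s i e) z v a = dq (s 0) (s a.succ) i e z v := by
  have h1 := fderiv_apply (𝕜 := ℂ) hz a
  show _ = fderiv ℂ (fun z => rb s i e z a) z v
  rw [h1]
  rfl

omit [IsManifold 𝓘(ℂ, Cm n) ω X] in
theorem rb_analytic {s : Fin (r + 1 + 1) → Sec L k} {i : L.ι} {e : Chart n X} {x : X}
    (he : At e x) (hi : x ∈ L.U i) (hs : (s 0).f i x ≠ 0) : AnalyticAt ℂ (rb s i e) (e x) := by
  have hs1 : (s 0).f i (e.symm (e x)) ≠ 0 := by rwa [he.left_inv]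
  exact analyticAt_pi_iff.2 fun a =>
    ((s a.succ).holo i e x he hi).analyticAt.div ((s 0).holo i e x he hi).analyticAt hs1

/-- **the normal form** `φ = U det (Db)` with `b` the ratios of sections, compact Kähler manifolds -/
theorem decK [T2Space X] [CompactSpace X] (hw : IsKahler W)
    (φ : Mor L (r + 1)) (hk : k ≠ 0) (s : Fin (r + 1 + 1) → Sec L k) {i : L.ι} {e : Chart n X} {x : X}
    (he : At e x) (hi : x ∈ L.U i) (hs : (s 0).f i x ≠ 0)
    (hli : LinearIndependent ℂ fun a : Fin (r + 1) => dq (s 0) (s a.succ) i e (e x)) :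
    ∃ U : Cm n → ℂ, AnalyticAt ℂ U (e x) ∧ (φ.form i e (e x) ≠ 0 → U (e x) ≠ 0) ∧
      AnalyticAt ℂ (rb s i e) (e x) ∧ Function.Surjective (fderiv ℂ (rb s i e) (e x)) ∧
      ∀ᶠ z in 𝓝 (e x), ∀ ξ : Fin (r + 1) → Cm n,
        φ.form i e z ξ = U z * (Matrix.of fun a b => fderiv ℂ (rb s i e) z (ξ b) a).det := by
  obtain ⟨E, hE⟩ := exists_dual hli
  have hsh : ∀ a, AnalyticAt ℂ (fun z => (s a).f i (e.symm z)) (e x) := fun a =>
    ((s a).holo i e x he hi).analyticAt
  have hs1 : (s 0).f i (e.symm (e x)) ≠ 0 := by rwa [he.left_inv]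
  have hra : ∀ a, AnalyticAt ℂ (fun z => rb s i e z a) (e x) := fun a => (hsh _).div (hsh 0) hs1
  have hrb : AnalyticAt ℂ (rb s i e) (e x) := analyticAt_pi_iff.2 hra
  set M : Cm n → Matrix (Fin (r + 1)) (Fin (r + 1)) ℂ := fun z =>
    Matrix.of fun a b => dq (s 0) (s a.succ) i e z (E b) with hM
  have hMd : AnalyticAt ℂ (fun z => (M z).det) (e x) := by
    have h1 : (fun z => (M z).det) = fun z => ∑ σ : Equiv.Perm (Fin (r + 1)),
        ((Equiv.Perm.sign σ : ℤ) : ℂ) * ∏ l, M z (σ l) l := by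
      funext z
      exact Matrix.det_apply' (M z)
    rw [h1]
    refine Finset.analyticAt_fun_sum _ fun σ _ => analyticAt_const.mul
      (Finset.analyticAt_fun_prod _ fun l _ => ?_)
    exact (ContinuousLinearMap.apply ℂ ℂ (E l)).analyticAt _ |>.comp (hra (σ l)).fderiv
  have hM1 : (M (e x)).det = 1 := by
    have : M (e x) = 1 := by
      ext a b
      rw [Matrix.one_apply]
      exact hE a b
    rw [this, Matrix.det_one]
  have hM0 : (M (e x)).det ≠ 0 := by rw [hM1]; exact one_ne_zero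
  have hφE : AnalyticAt ℂ (fun z => φ.form i e z E) (e x) := (φ.holo i e x he hi E).analyticAt
  have hev : ∀ᶠ z in 𝓝 (e x), DifferentiableAt ℂ (rb s i e) z ∧ ∀ ξ : Fin (r + 1) → Cm n,
      φ.form i e z ξ = φ.form i e z E / (M z).det *
        (Matrix.of fun a b => dq (s 0) (s a.succ) i e z (ξ b)).det := by
    have h1 : ∀ᶠ z in 𝓝 (e x), e.symm z ∈ L.U i := ev_symm he ((L.isOpen i).mem_nhds hi)
    filter_upwards [he.nhds_target, h1, (hsh 0).continuousAt.eventually_ne hs1,
      hMd.continuousAt.eventually_ne hM0, hrb.eventually_analyticAt] with z hz1 hz2 hz3 hz4 hz5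
    refine ⟨hz5.differentiableAt, fun ξ => ?_⟩
    have hAt : At e (e.symm z) := At.of_target he.1 hz1
    have hez : e (e.symm z) = z := e.right_inv hz1
    have h2 := dec_pt hw φ hk s hAt hz2 hz3 E ξ
    rw [hez] at h2
    rw [div_mul_eq_mul_div, eq_div_iff hz4]
    exact h2
  refine ⟨fun z => φ.form i e z E / (M z).det, hφE.div hMd hM0, ?_, hrb, ?_, ?_⟩
  · intro hφ h0
    apply hφ
    ext ξ
    rw [AlternatingMap.zero_apply, hev.self_of_nhds.2 ξ]
    simp only at h0
    rw [h0, zero_mul]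
  · intro y
    refine ⟨∑ b, y b • E b, ?_⟩
    funext a
    rw [rb_fderiv hrb.differentiableAt, map_sum]
    simp only [map_smul, smul_eq_mul, hE]
    simp
  · filter_upwards [hev] with z hz ξ
    rw [hz.2 ξ]
    congr 3
    funext a
    funext b
    exact (rb_fderiv hz.1 _ _).symm

end Vale.Agent.P284.H500.D
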