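import Vale.Agent.P284.H500.D.Dec
import Vale.Agent.P284.H451.D.Sard

/-!
# P284 (helper500), project D: the good points of a Bogomolov sheaf are dense
-/

open scoped Manifold ContDiff Topology ComplexOrder ComplexConjugate Matrix
open Filter Set MeasureTheory

noncomputable section

namespace Vale.Agent.P284.H500.D

open Vale.Agent.P272.K Vale.Agent.P284.H248 Vale.Agent.P284.H206.Bog Vale.Agent.P284.H206.Sp

/-- the identity theorem for a condition given locally by analytic equations -/
theorem dense_of_local {n : ℕ} {X : Type} [TopologicalSpace X] [ChartedSpace (Cm n) X]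
    [ConnectedSpace X] {P : X → Prop}
    (h : ∀ x, ∃ e : Chart n X, At e x ∧ ∃ (ι : Type) (g : ι → Cm n → ℂ), ∃ V ∈ 𝓝 (e x),
      (∀ l, AnalyticOnNhd ℂ (g l) V) ∧ ∀ᶠ y in 𝓝 x, (P y ↔ ∀ l, g l (e y) = 0))
    (hne : ∃ x, ¬ P x) (x : X) : ∃ᶠ y in 𝓝 x, ¬ P y := by
  by_contra hcon
  rw [not_frequently] at hcon
  simp only [not_not] at hcon
  set A : Set X := {x | ∀ᶠ y in 𝓝 x, P y} with hA
  have hAo : IsOpen A := isOpen_setOfPred_eventually_nhds
  have hAc : IsClosed A := by
    rw [← isOpen_compl_iff, isOpen_iff_mem_nhds]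
    intro y hy
    obtain ⟨e, hAt, ι, g, V, hV, hg, hP⟩ := h y
    obtain ⟨δ, hδ, hδV⟩ := Metric.mem_nhds_iff.1 hV
    have h2 : Tendsto e (𝓝 y) (𝓝 (e y)) := e.continuousAt hAt.2
    -- an equation which is not locally trivial
    obtain ⟨l, hl⟩ : ∃ l, ∃ z ∈ Metric.ball (e y) δ, g l z ≠ 0 := by
      by_contra hcon2
      push Not at hcon2
      apply hy
      filter_upwards [hP, h2.eventually (Metric.ball_mem_nhds _ hδ)] with y' a1 a2
      exact a1.2 fun l => hcon2 l _ a2
    filter_upwards [h2.eventually (Metric.ball_mem_nhds _ hδ), e.open_source.mem_nhds hAt.2,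
      eventually_eventually_nhds.2 hP] with y' a1 a2 a3 hyA
    obtain ⟨z, hz, hne'⟩ := hl
    apply hne'
    have hAt' : At e y' := ⟨hAt.1, a2⟩
    have h3 : ∀ᶠ z in 𝓝 (e y'), g l z = 0 := by
      have h4 : Tendsto e.symm (𝓝 (e y')) (𝓝 y') := by
        have := (e.continuousAt_symm (e.map_source a2)).tendsto
        rwa [e.left_inv a2] at this
      filter_upwards [h4.eventually a3, h4.eventually hyA, hAt'.nhds_target] with z b1 b2 b3
      have := b1.1 b2 l
      rwa [e.right_inv b3] at this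
    exact ((hg l).mono hδV).eqOn_zero_of_preconnected_of_eventuallyEq_zero
      (convex_ball _ _).isPreconnected a1 h3 hz
  obtain ⟨y, hy⟩ := hne
  rcases isClopen_iff.1 ⟨hAc, hAo⟩ with h1 | h1
  · have : x ∈ A := hcon
    rw [h1] at this
    exact this
  · have : y ∈ A := by rw [h1]; exact mem_univ y
    exact hy this.self_of_nhds

section
variable {n R : ℕ} {X : Type} [TopologicalSpace X] [ChartedSpace (Cm n) X]
  [IsManifold 𝓘(ℂ, Cm n) ω X] {L : LineBundle n X} {k : ℕ}

omit [IsManifold 𝓘(ℂ, Cm n) ω X] in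
theorem rb_an {s : Fin (R + 1) → Sec L k} {i : L.ι} {e : Chart n X} {x : X}
    (he : At e x) (hi : x ∈ L.U i) (hs : (s 0).f i x ≠ 0) : AnalyticAt ℂ (rb s i e) (e x) := by
  have hs1 : (s 0).f i (e.symm (e x)) ≠ 0 := by rwa [he.left_inv]
  exact analyticAt_pi_iff.2 fun a =>
    ((s a.succ).holo i e x he hi).analyticAt.div ((s 0).holo i e x he hi).analyticAt hs1

omit [IsManifold 𝓘(ℂ, Cm n) ω X] in
theorem rb_fd {s : Fin (R + 1) → Sec L k} {i : L.ι} {e : Chart n X} {z : Cm n}
    (hz : DifferentiableAt ℂ (rb s i e) z) (v : Cm n) (a : Fin R) :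
    fderiv ℂ (rb s i e) z v a = dq (s 0) (s a.succ) i e z v := by
  have h1 := fderiv_apply (𝕜 := ℂ) hz a
  show _ = fderiv ℂ (fun z => rb s i e z a) z v
  rw [h1]
  rfl

/-- the good points: `φ ≠ 0`, `s_0 ≠ 0` and the ratios have rank `R` -/
def Gd (φ : Mor L R) (s : Fin (R + 1) → Sec L k) (i : L.ι) (e : Chart n X) (y : X) : Prop :=
  φ.form i e (e y) ≠ 0 ∧ (s 0).f i y ≠ 0 ∧ Function.Surjective (fderiv ℂ (rb s i e) (e y))

/-- the condition does not depend on the chart and the trivialisation -/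
theorem Gd.change {φ : Mor L R} {s : Fin (R + 1) → Sec L k} {i i' : L.ι} {e e' : Chart n X} {y : X}
    (h : Gd φ s i' e' y) (he : At e y) (he' : At e' y) (hi : y ∈ L.U i) (hi' : y ∈ L.U i') :
    Gd φ s i e y := by
  obtain ⟨h1, h2, h3⟩ := h
  have hs : (s 0).f i y ≠ 0 := by
    intro h0
    apply h2
    rw [(s 0).change i' i y hi' hi, h0, mul_zero]
  refine ⟨fun h0 => h1 ?_, hs, fun v => ?_⟩
  · rw [φ.glue i i' e' y he' hi hi', φ.change i e' e y he' he hi, h0]
    ext v
    simp
  · obtain ⟨u, hu⟩ := h3 v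
    have hT : ContDiffAt ℂ ω (fun z => e (e'.symm z)) (e' y) := transition he' he
    have hcz : e (e'.symm (e' y)) = e y := by rw [he'.left_inv]
    refine ⟨fderiv ℂ (fun z => e (e'.symm z)) (e' y) u, ?_⟩
    have hev : rb s i' e' =ᶠ[𝓝 (e' y)] fun z => rb s i e (e (e'.symm z)) := by
      filter_upwards [he'.nhds_at he, ev_symm he' ((L.isOpen i).mem_nhds hi),
        ev_symm he' ((L.isOpen i').mem_nhds hi')] with z a1 a2 a3
      funext a
      have hg : L.g i' i (e'.symm z) ^ k ≠ 0 := pow_ne_zero _ (L.ne_zero _ _ _ a3 a2)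
      show (s a.succ).f i' (e'.symm z) / (s 0).f i' (e'.symm z) =
        (s a.succ).f i (e.symm (e (e'.symm z))) / (s 0).f i (e.symm (e (e'.symm z)))
      rw [a1.2.2.left_inv, (s a.succ).change i' i _ a3 a2, (s 0).change i' i _ a3 a2,
        mul_div_mul_left _ _ hg]
    have hd : DifferentiableAt ℂ (rb s i e) (e (e'.symm (e' y))) := by
      rw [hcz]; exact (rb_an he hi hs).differentiableAt
    have h4 := fderiv_comp (𝕜 := ℂ) (e' y) (g := rb s i e) (f := fun z => e (e'.symm z)) hd
      (hT.differentiableAt (by simp))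
    rw [← hu, hev.fderiv_eq, show (fun z => rb s i e (e (e'.symm z))) =
      rb s i e ∘ fun z => e (e'.symm z) from rfl, h4, ContinuousLinearMap.comp_apply, hcz]

/-- **the good points are dense** -/
theorem gd_dense [ConnectedSpace X] {φ : Mor L R} {s : Fin (R + 1) → Sec L k}
    (h0 : ∃ y i e, At e y ∧ y ∈ L.U i ∧ Gd φ s i e y) (x : X) :
    ∃ᶠ y in 𝓝 x, ∃ i e, At e y ∧ y ∈ L.U i ∧ Gd φ s i e y := by
  have key := dense_of_local (X := X) (n := n)
    (P := fun y => ¬ ∃ i e, At e y ∧ y ∈ L.U i ∧ Gd φ s i e y) (fun x => ?_) (by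
      obtain ⟨y, hy⟩ := h0
      exact ⟨y, by simpa using hy⟩) x
  · simpa using key
  obtain ⟨i, hi⟩ := L.cover x
  set e := chartAt (Cm n) x with he
  have hAt : At e x := ⟨chart_mem_atlas _ _, mem_chart_source _ _⟩
  -- the equations
  set N : (Fin R → Cm n) → Cm n → Matrix (Fin R) (Fin R) ℂ := fun η z => Matrix.of fun a b =>
    (s 0).f i (e.symm z) * fderiv ℂ (fun z => (s a.succ).f i (e.symm z)) z (η b) -
      (s a.succ).f i (e.symm z) * fderiv ℂ (fun z => (s 0).f i (e.symm z)) z (η b) with hN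
  refine ⟨e, hAt, (Fin R → Cm n) × (Fin R → Cm n), fun l z => φ.form i e z l.1 *
    (s 0).f i (e.symm z) * (N l.2 z).det, {z | z ∈ e.target ∧ e.symm z ∈ L.U i}, ?_, ?_, ?_⟩
  · filter_upwards [hAt.nhds_target, ev_symm hAt ((L.isOpen i).mem_nhds hi)] with z a b
    exact ⟨a, b⟩
  · rintro ⟨ξ, η⟩ z ⟨hz, hzi⟩
    have hAt' : At e (e.symm z) := At.of_target hAt.1 hz
    have hez : e (e.symm z) = z := e.right_inv hz
    have hs : ∀ a, AnalyticAt ℂ (fun z => (s a).f i (e.symm z)) z := fun a => by
      have := ((s a).holo i e _ hAt' hzi).analyticAt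
      rwa [hez] at this
    have hφ : AnalyticAt ℂ (fun z => φ.form i e z ξ) z := by
      have := (φ.holo i e _ hAt' hzi ξ).analyticAt
      rwa [hez] at this
    refine (hφ.mul (hs 0)).mul ?_
    have h1 : (fun z => (N η z).det) = fun z => ∑ σ : Equiv.Perm (Fin R),
        ((Equiv.Perm.sign σ : ℤ) : ℂ) * ∏ l, N η z (σ l) l := by
      funext z
      exact Matrix.det_apply' (N η z)
    rw [h1]
    refine Finset.analyticAt_fun_sum _ fun σ _ => analyticAt_const.mul
      (Finset.analyticAt_fun_prod _ fun l _ => ?_)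
    have h2 : ∀ a (v : Cm n), AnalyticAt ℂ (fun z => fderiv ℂ (fun z => (s a).f i (e.symm z)) z v) z :=
      fun a v => (ContinuousLinearMap.apply ℂ ℂ v).analyticAt _ |>.comp (hs a).fderiv
    exact ((hs 0).mul (h2 _ _)).sub ((hs _).mul (h2 _ _))
  · filter_upwards [e.open_source.mem_nhds hAt.2, (L.isOpen i).mem_nhds hi] with y a1 a2
    have hAty : At e y := ⟨hAt.1, a1⟩
    have hey : e.symm (e y) = y := e.left_inv a1
    -- the determinant of the derivative of the ratios
    have hdet : (s 0).f i y ≠ 0 → ∀ η : Fin R → Cm n, (N η (e y)).det =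
        ((s 0).f i y ^ 2) ^ R * (Matrix.of fun a b => fderiv ℂ (rb s i e) (e y) (η b) a).det := by
      intro hs0 η
      have hs0' : (s 0).f i (e.symm (e y)) ≠ 0 := by rwa [hey]
      have h1 : N η (e y) = ((s 0).f i y ^ 2) •
          (Matrix.of fun a b => fderiv ℂ (rb s i e) (e y) (η b) a) := by
        ext a b
        rw [Matrix.smul_apply, Matrix.of_apply, rb_fd (rb_an hAty a2 hs0).differentiableAt]
        have hda := ((s a.succ).holo i e y hAty a2).differentiableAt (by simp)
        have hd0 := ((s 0).holo i e y hAty a2).differentiableAt (by simp)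
        have hq : DifferentiableAt ℂ
            (fun z => (s a.succ).f i (e.symm z) / (s 0).f i (e.symm z)) (e y) := by
          have h4 := (analyticAt_pi_iff.1 (rb_an hAty a2 hs0) a).differentiableAt
          exact h4
        have hev : (fun z => (s a.succ).f i (e.symm z)) =ᶠ[𝓝 (e y)] fun z =>
            (s a.succ).f i (e.symm z) / (s 0).f i (e.symm z) * (s 0).f i (e.symm z) := by
          filter_upwards [hd0.continuousAt.eventually_ne hs0'] with z hz
          rw [div_mul_cancel₀ _ hz]
        have h5 : fderiv ℂ (fun z => (s a.succ).f i (e.symm z)) (e y) (η b) =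
            (s a.succ).f i y / (s 0).f i y * fderiv ℂ (fun z => (s 0).f i (e.symm z)) (e y) (η b) +
            (s 0).f i y * dq (s 0) (s a.succ) i e (e y) (η b) := by
          rw [hev.fderiv_eq, fderiv_fun_mul hq hd0]
          simp only [add_apply, smul_apply, smul_eq_mul, hey]
          rfl
        show (s 0).f i (e.symm (e y)) * fderiv ℂ (fun z => (s a.succ).f i (e.symm z)) (e y) (η b) -
          (s a.succ).f i (e.symm (e y)) * fderiv ℂ (fun z => (s 0).f i (e.symm z)) (e y) (η b) = _
        rw [h5, hey, smul_eq_mul]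
        field_simp
        ring
      rw [h1, Matrix.det_smul, Fintype.card_fin]
    constructor
    · rintro hP ⟨ξ, η⟩
      by_contra hne
      apply hP
      have h1 : (s 0).f i y ≠ 0 := by
        intro h; apply hne
        simp only [hey, h, mul_zero, zero_mul]
      refine ⟨i, e, hAty, a2, fun h => hne ?_, h1, ?_⟩
      · simp only [h, AlternatingMap.zero_apply, zero_mul]
      · refine (H451.D.surj_iff_det _).2 ⟨η, fun h => hne ?_⟩
        simp only [hdet h1, h, mul_zero]
    · rintro hg ⟨i', e', he', hi', hG⟩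
      have hG' := hG.change (i := i) (e := e) hAty he' a2 hi'
      obtain ⟨b1, b2, b3⟩ := hG'
      obtain ⟨η, hη⟩ := (H451.D.surj_iff_det _).1 b3
      obtain ⟨ξ, hξ⟩ : ∃ ξ, φ.form i e (e y) ξ ≠ 0 := by
        by_contra hcon
        push Not at hcon
        exact b1 (by ext v; exact hcon v)
      have := hg (ξ, η)
      simp only [hey, hdet b2] at this
      rcases mul_eq_zero.1 this with h | h
      · rcases mul_eq_zero.1 h with h | h
        · exact hξ h
        · exact b2 h
      · rcases mul_eq_zero.1 h with h | h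
        · exact pow_ne_zero _ (pow_ne_zero _ b2) h
        · exact hη h

end

end Vale.Agent.P284.H500.D
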