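import Vale.Agent.P284.H500.D.Setup
import Vale.Agent.P284.H661.D.Spec

/-!
# P284 (helper500), project D: E0
-/

open scoped Manifold ContDiff Topology

noncomputable section

namespace Vale.Agent.P284.H500.D

open Vale.Agent.P272.K Vale.Agent.P284.H248 Vale.Agent.P284.H661.D

/-- **E0** -/
theorem e0 : E0Stmt := by
  intro n N X _ _ _ _ _ _ W hW hD hS
  obtain ⟨r, hr, L, φ, k, hk, s, f, F, hf, hF, hp, hne, hs, -⟩ := setup hW hD hS
  exact ⟨r + 1, by omega, hr, L, φ, k, hk, s, f, F, ⟨hf, hF, hp, hne, hs⟩⟩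

end Vale.Agent.P284.H500.D
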