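import Vale.Agent.P284.H500.D.Dense
import Vale.Agent.P284.H553.R6.VS
import Vale.Agent.P284.H573.L12
import Vale.Agent.P284.H174.SigW
import Vale.Agent.P284.H451.D.Cone

/-!
# P284 (helper500), project D, module E0: the set-up

A compact Kähler manifold which is not special and has a holomorphic map `ℂᴺ → X` of rank `dim X` at one
point carries a line bundle `L`, a morphism `φ : L → Ω^R`, sections `s_0, …, s_R` of `L^k`, a holomorphic
map `f : ℂᴿ → X` and the entire map `F = (f^*(s_a φ^k) / (dz)^k)_a : ℂᴿ → ℂᴿ⁺¹`, with `F 0 ≠ 0` and `[F]`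
immersive at `0`.
-/

open scoped Manifold ContDiff Topology ComplexOrder ComplexConjugate Matrix
open Filter Set MeasureTheory

noncomputable section

namespace Vale.Agent.P284.H500.D

open Vale.Agent.P272.K Vale.Agent.P284.H248 Vale.Agent.P284.H206.Bog Vale.Agent.P284.H206.Sp
  Vale.Agent.P284.H553.R6 Vale.Agent.P284.H573 Vale.Agent.P284.H221 Vale.Agent.P284.H174
  Vale.Agent.P284.H174.GD

/-- an entire map given in one affine chart of the projective space by `h • (1, t)`, with `h ≠ 0` and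
`t` biholomorphic, is a projective immersion -/
theorem LF_cons {R : ℕ} {F : Cm R → Cm (R + 1)} {h : Cm R → ℂ} {t : Cm R → Cm R} {z : Cm R}
    (hF : ∀ᶠ z' in 𝓝 z, F z' = h z' • (Fin.cons 1 (t z') : Cm (R + 1)))
    (hh : DifferentiableAt ℂ h z) (ht : DifferentiableAt ℂ t z) (h0 : h z ≠ 0)
    (hts : Function.Surjective (fderiv ℂ t z)) : Function.Surjective (H451.D.LF F z) := by
  -- the components
  have hF0 : (fun z' => F z' 0) =ᶠ[𝓝 z] h := by
    filter_upwards [hF] with z' hz'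
    rw [hz']; simp
  have hFa : ∀ a : Fin R, (fun z' => F z' a.succ) =ᶠ[𝓝 z] fun z' => h z' * t z' a := by
    intro a
    filter_upwards [hF] with z' hz'
    rw [hz']; simp
  have hta : ∀ a, DifferentiableAt ℂ (fun z' => t z' a) z := fun a => differentiableAt_pi.1 ht a
  have hFd : DifferentiableAt ℂ F z := by
    refine differentiableAt_pi.2 fun j => ?_
    refine Fin.cases ?_ (fun a => ?_) j
    · exact hh.congr_of_eventuallyEq hF0
    · exact (hh.mul (hta a)).congr_of_eventuallyEq (hFa a)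
  have hd0 : ∀ ξ, fderiv ℂ F z ξ 0 = fderiv ℂ h z ξ := by
    intro ξ
    have h1 := fderiv_apply (𝕜 := ℂ) hFd (0 : Fin (R + 1))
    have h2 : fderiv ℂ F z ξ 0 = fderiv ℂ (fun z' => F z' 0) z ξ := by rw [h1]; rfl
    rw [h2, hF0.fderiv_eq]
  have hda : ∀ ξ (a : Fin R), fderiv ℂ F z ξ a.succ =
      h z * fderiv ℂ t z ξ a + t z a * fderiv ℂ h z ξ := by
    intro ξ a
    have h1 := fderiv_apply (𝕜 := ℂ) hFd a.succ
    have h2 : fderiv ℂ F z ξ a.succ = fderiv ℂ (fun z' => F z' a.succ) z ξ := by rw [h1]; rfl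
    have h3 := fderiv_apply (𝕜 := ℂ) ht a
    have h4 : fderiv ℂ t z ξ a = fderiv ℂ (fun z' => t z' a) z ξ := by rw [h3]; rfl
    rw [h2, (hFa a).fderiv_eq, fderiv_fun_mul hh (hta a), h4]
    simp only [add_apply, smul_apply, smul_eq_mul]
  intro y
  obtain ⟨ξ, hξ⟩ := hts fun a => (y a.succ - y 0 * t z a) / h z
  refine ⟨((y 0 - fderiv ℂ h z ξ) / h z, ξ), ?_⟩
  rw [H451.D.LF_apply, hF.self_of_nhds]
  funext j
  refine Fin.cases ?_ (fun a => ?_) j
  · simp only [Pi.add_apply, Pi.smul_apply, Fin.cons_zero, smul_eq_mul, mul_one, hd0]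
    field_simp
    ring
  · simp only [Pi.add_apply, Pi.smul_apply, Fin.cons_succ, smul_eq_mul, hda, hξ]
    field_simp
    ring

/-- **E0, the set-up of project D** -/
theorem setup {n N : ℕ} {X : Type} [TopologicalSpace X] [T2Space X] [CompactSpace X]
    [ConnectedSpace X] [ChartedSpace (Cm n) X] [IsManifold 𝓘(ℂ, Cm n) ω X]
    {w : Chart n X → Cm n → Matrix (Fin n) (Fin n) ℂ} (hw : IsKahler w) (hD : DomW N n X)
    (hS : ¬ Special n X) :
    ∃ r : ℕ, r + 1 ≤ n ∧ ∃ (L : LineBundle n X) (φ : Mor L (r + 1)) (k : ℕ), 1 ≤ k ∧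
      ∃ (s : Fin (r + 1 + 1) → Sec L k) (f : Cm (r + 1) → X) (F : Cm (r + 1) → Cm (r + 1 + 1)),
        ContMDiff 𝓘(ℂ, Cm (r + 1)) 𝓘(ℂ, Cm n) ω f ∧ (∀ z, AnalyticAt ℂ F z) ∧
        (∀ z i e, At e (f z) → f z ∈ L.U i → ∀ a, F z a = (s a).f i (f z) *
          (φ.form i e (e (f z)) fun j => fderiv ℂ (fun z' => e (f z')) z (Pi.single j 1)) ^ k) ∧
        F 0 ≠ 0 ∧ Function.Surjective (H451.D.LF F 0) ∧
        ∃ i e, At e (f 0) ∧ f 0 ∈ L.U i ∧ φ.form i e (e (f 0)) ≠ 0 ∧ (s 0).f i (f 0) ≠ 0 ∧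
          LinearIndependent ℂ fun a : Fin (r + 1) => dq (s 0) (s a.succ) i e (e (f 0)) := by
  unfold Special at hS
  push Not at hS
  obtain ⟨p, hp1, hpn, L, hκ, φ, hφ⟩ := hS
  obtain ⟨r, rfl⟩ : ∃ r, p = r + 1 := ⟨p - 1, by omega⟩
  obtain ⟨k, hk1, s, i₀, e₀, x₀, he₀, hi₀, hs₀, hli₀⟩ := hκ.1
  have hk : k ≠ 0 := by omega
  refine ⟨r, hpn, L, φ, k, hk1, s, ?_⟩
  -- a good point
  have hsh : ∀ a, AnalyticAt ℂ (fun z => (s a).f i₀ (e₀.symm z)) (e₀ x₀) := fun a =>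
    ((s a).holo i₀ e₀ x₀ he₀ hi₀).analyticAt
  have hs1 : (s 0).f i₀ (e₀.symm (e₀ x₀)) ≠ 0 := by rwa [he₀.left_inv]
  have hra : ∀ a : Fin (r + 1), AnalyticAt ℂ (fun z => rb s i₀ e₀ z a) (e₀ x₀) :=
    fun a => (hsh _).div (hsh 0) hs1
  have hcont : ContinuousAt (fun z => fun a : Fin (r + 1) => dq (s 0) (s a.succ) i₀ e₀ z) (e₀ x₀) :=
    continuousAt_pi.2 fun a => (hra a).fderiv.continuousAt
  have hev1 : ∀ᶠ z in 𝓝 (e₀ x₀), LinearIndependent ℂ fun a : Fin (r + 1) =>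
      dq (s 0) (s a.succ) i₀ e₀ z :=
    hcont.eventually (isOpen_setOfPred_linearIndependent.mem_nhds hli₀)
  have hev2 : ∀ᶠ z in 𝓝 (e₀ x₀), (s 0).f i₀ (e₀.symm z) ≠ 0 :=
    (hsh 0).continuousAt.eventually_ne hs1
  have hev3 : ∀ᶠ x in 𝓝 x₀, (LinearIndependent ℂ fun a : Fin (r + 1) =>
      dq (s 0) (s a.succ) i₀ e₀ (e₀ x)) ∧ (s 0).f i₀ x ≠ 0 ∧ At e₀ x ∧ x ∈ L.U i₀ := by
    filter_upwards [(e₀.continuousAt he₀.2).eventually hev1, (e₀.continuousAt he₀.2).eventually hev2,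
      e₀.open_source.mem_nhds he₀.2, (L.isOpen i₀).mem_nhds hi₀] with x a1 a2 a3 a4
    exact ⟨a1, by rwa [e₀.left_inv a3] at a2, ⟨he₀.1, a3⟩, a4⟩
  have hgood0 : ∃ y i e, At e y ∧ y ∈ L.U i ∧ Gd φ s i e y := by
    obtain ⟨x, hx1, hx2, hx3, hx4, hx5⟩ := ((dense_ne hφ x₀).and_eventually hev3).exists
    have hne : φ.form i₀ e₀ (e₀ x) ≠ 0 := fun h0 => hx1 (van_of hx4 hx5 h0)
    obtain ⟨E, hE⟩ := exists_dual hx2
    refine ⟨x, i₀, e₀, hx4, hx5, hne, hx3, fun y => ⟨∑ b, y b • E b, ?_⟩⟩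
    funext a
    rw [rb_fd (rb_an hx4 hx5 hx3).differentiableAt, map_sum]
    simp only [map_smul, smul_eq_mul, hE]
    simp
  -- a good point in the image of `Φ`
  obtain ⟨Φ, hΦ, ζ₀, hrk⟩ := hD
  obtain ⟨ζ₁, hrk₁, i, e, hAt₁, hi₁, hG⟩ : ∃ ζ₁, RkAt n Φ ζ₁ ∧ ∃ i e, At e (Φ ζ₁) ∧ Φ ζ₁ ∈ L.U i ∧
      Gd φ s i e (Φ ζ₁) := by
    set c := chartAt (Cm n) (Φ ζ₀) with hc
    have hAt : At c (Φ ζ₀) := ⟨chart_mem_atlas _ _, mem_chart_source _ _⟩
    have h3 : ∀ᶠ ζ in 𝓝 ζ₀, RkAt n Φ ζ ∧ At c (Φ ζ) := by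
      filter_upwards [rkAt_eventually hΦ hrk, hΦ.continuous.continuousAt.eventually_mem
        (c.open_source.mem_nhds hAt.2)] with ζ a b using ⟨a, hAt.1, b⟩
    have h4 : ∀ᶠ z in 𝓝 (c (Φ ζ₀)), ∃ ζ, RkAt n Φ ζ ∧ At c (Φ ζ) ∧ c (Φ ζ) = z := by
      rw [← map_nhds_of_rk hΦ hrk hAt, eventually_map]
      filter_upwards [h3] with ζ hζ using ⟨ζ, hζ.1, hζ.2, rfl⟩
    have h5 : ∀ᶠ y in 𝓝 (Φ ζ₀), ∃ ζ, RkAt n Φ ζ ∧ Φ ζ = y := by
      filter_upwards [(c.continuousAt hAt.2).eventually h4, c.open_source.mem_nhds hAt.2] with y h6 h7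
      obtain ⟨ζ, a, b, d⟩ := h6
      exact ⟨ζ, a, c.injOn b.2 h7 d⟩
    obtain ⟨y, ⟨i, e, b1, b2, b3⟩, ζ, hζ, hy⟩ := ((gd_dense hgood0 (Φ ζ₀)).and_eventually h5).exists
    subst hy
    exact ⟨ζ, hζ, i, e, b1, b2, b3⟩
  obtain ⟨hφ₁, hs01, hsur⟩ := hG
  -- the slice
  have hg : AnalyticAt ℂ (fun ξ => e (Φ ξ)) ζ₁ := chart_comp_analytic hΦ hAt₁
  have hgs : Function.Surjective (fderiv ℂ (fun ξ => e (Φ ξ)) ζ₁) := hrk₁.surjective hΦ hAt₁
  have hban : AnalyticAt ℂ (rb s i e) (e (Φ ζ₁)) := rb_an hAt₁ hi₁ hs01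
  have hBd : fderiv ℂ (fun ξ => rb s i e (e (Φ ξ))) ζ₁ =
      (fderiv ℂ (rb s i e) (e (Φ ζ₁))).comp (fderiv ℂ (fun ξ => e (Φ ξ)) ζ₁) :=
    fderiv_comp ζ₁ (g := rb s i e) (f := fun ξ => e (Φ ξ)) hban.differentiableAt hg.differentiableAt
  have hBs : Function.Surjective (fderiv ℂ (fun ξ => rb s i e (e (Φ ξ))) ζ₁) := by
    rw [hBd]; exact hsur.comp hgs
  obtain ⟨ι₀, hι₀⟩ := (fderiv ℂ (fun ξ => rb s i e (e (Φ ξ))) ζ₁ : Cm N →ₗ[ℂ] Cm (r + 1)
    ).exists_rightInverse_of_surjective (LinearMap.range_eq_top.2 hBs)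
  let ι₁ : Cm (r + 1) →L[ℂ] Cm N := LinearMap.toContinuousLinearMap ι₀
  let A : Cm (r + 1) → Cm N := fun z => ζ₁ + ι₁ z
  have hAa : ∀ z, AnalyticAt ℂ A z := fun z => analyticAt_const.add (ι₁.analyticAt z)
  have hAd : ∀ z, fderiv ℂ A z = ι₁ := fun z => by
    have : HasFDerivAt A ι₁ z := ι₁.hasFDerivAt.const_add ζ₁
    exact this.fderiv
  have hA0 : A 0 = ζ₁ := by simp [A]
  have hAm : ContMDiff 𝓘(ℂ, Cm (r + 1)) 𝓘(ℂ, Cm N) ω A := by
    rw [contMDiff_iff_contDiff]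
    exact contDiff_const.add ι₁.contDiff
  let f : Cm (r + 1) → X := fun z => Φ (A z)
  have hf : ContMDiff 𝓘(ℂ, Cm (r + 1)) 𝓘(ℂ, Cm n) ω f := hΦ.comp hAm
  have hf0 : f 0 = Φ ζ₁ := by show Φ (A 0) = _; rw [hA0]
  have hfh : ∀ (z : Cm (r + 1)) (c : Chart n X), At c (f z) → AnalyticAt ℂ (fun z' => c (f z')) z :=
    fun z c hc => chart_comp_analytic hf hc
  -- the entire map
  have hv := vS_hform s φ
  have h0 : ∀ z, At (chartAt (Cm n) (f z) : Chart n X) (f z) := fun z =>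
    ⟨chart_mem_atlas _ _, mem_chart_source _ _⟩
  have hVe : ∀ (z : Cm (r + 1)) (c : Chart n X), At c (f z) →
      VE (id : X → X) (vS s φ) f z = vS s φ (f z) c
        fun j => fderiv ℂ (fun z' => c (f z')) z (Pi.single j 1) :=
    fun z c hc => pull_chart hv (h0 z) hc hf.continuous.continuousAt
      (hfh z _ (h0 z)).differentiableAt
  have hVa : ∀ z, AnalyticAt ℂ (VE (id : X → X) (vS s φ) f) z := by
    intro z
    have h1 : ∀ᶠ z' in 𝓝 z, f z' ∈ (chartAt (Cm n) (f z) : Chart n X).source :=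
      hf.continuous.continuousAt.eventually_mem
        ((chartAt (Cm n) (f z) : Chart n X).open_source.mem_nhds (h0 z).2)
    refine (pull_an hv hf.continuous.continuousAt (h0 z) (hfh z _ (h0 z))).congr ?_
    filter_upwards [h1] with z' hz'
    exact (hVe z' _ ⟨(h0 z).1, hz'⟩).symm
  let F : Cm (r + 1) → Cm (r + 1 + 1) := fun z a => VE (id : X → X) (vS s φ) f z a
  have hFa : ∀ z, AnalyticAt ℂ F z := by
    intro z
    exact ((EuclideanSpace.equiv (Fin (r + 1 + 1)) ℂ).toContinuousLinearMap.analyticAt _).comp (hVa z)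
  have hFe : ∀ z i c, At c (f z) → f z ∈ L.U i → ∀ a, F z a = (s a).f i (f z) *
      (φ.form i c (c (f z)) fun j => fderiv ℂ (fun z' => c (f z')) z (Pi.single j 1)) ^ k := by
    intro z i c hc hi a
    show VE (id : X → X) (vS s φ) f z a = _
    rw [hVe z c hc, vS_eq s φ hc hi]
    rfl
  -- near the origin
  have hli : LinearIndependent ℂ fun a : Fin (r + 1) => dq (s 0) (s a.succ) i e (e (Φ ζ₁)) := by
    rw [Fintype.linearIndependent_iff]
    intro g hg' a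
    obtain ⟨v, hv'⟩ := hsur (Pi.single a 1)
    have h1 := congrArg (fun T : Cm n →L[ℂ] ℂ => T v) hg'
    simp only [sum_apply, smul_apply, smul_eq_mul,
      zero_apply, ← rb_fd hban.differentiableAt, hv'] at h1
    simpa [Pi.single_apply] using h1
  obtain ⟨U, hUa, hU0, -, -, hnf⟩ := decK hw φ hk s hAt₁ hi₁ hs01 hli
  have hU1 := hU0 hφ₁
  let t : Cm (r + 1) → Cm (r + 1) := fun z => rb s i e (e (f z))
  have het : e (f 0) = e (Φ ζ₁) := by rw [hf0]
  have hta : AnalyticAt ℂ t 0 := by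
    refine AnalyticAt.comp (g := rb s i e) (f := fun z => e (f z)) ?_ (hfh 0 e (by rw [hf0]; exact hAt₁))
    rw [het]; exact hban
  have ht0 : fderiv ℂ t 0 = ContinuousLinearMap.id ℂ (Cm (r + 1)) := by
    have h4 : fderiv ℂ (fun z => rb s i e (e (Φ (A z)))) 0 =
        (fderiv ℂ (fun ξ => rb s i e (e (Φ ξ))) (A 0)).comp (fderiv ℂ A 0) := by
      refine fderiv_comp 0 (g := fun ξ => rb s i e (e (Φ ξ))) (f := A) ?_ (hAa 0).differentiableAt
      rw [hA0]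
      exact (AnalyticAt.comp (g := rb s i e) (f := fun ξ => e (Φ ξ)) hban hg).differentiableAt
    show fderiv ℂ (fun z => rb s i e (e (Φ (A z)))) 0 = _
    rw [h4, hA0, hAd]
    ext x j
    have := congrArg (fun L : Cm (r + 1) →ₗ[ℂ] Cm (r + 1) => L x j) hι₀
    exact this
  have hfc : Tendsto f (𝓝 0) (𝓝 (Φ ζ₁)) := by
    have := hf.continuous.tendsto 0
    rwa [hf0] at this
  have hev : ∀ᶠ z in 𝓝 (0 : Cm (r + 1)), F z = F z 0 • (Fin.cons 1 (t z) : Cm (r + 1 + 1)) := by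
    have hsc : ∀ᶠ x in 𝓝 (Φ ζ₁), (s 0).f i x ≠ 0 := by
      have h6 := ((s 0).holo i e _ hAt₁ hi₁).continuousAt
      have h7 : ∀ᶠ z in 𝓝 (e (Φ ζ₁)), (s 0).f i (e.symm z) ≠ 0 :=
        h6.eventually_ne (by rwa [hAt₁.left_inv])
      filter_upwards [(e.continuousAt hAt₁.2).eventually h7, e.open_source.mem_nhds hAt₁.2]
        with x a b
      rwa [e.left_inv b] at a
    filter_upwards [hfc.eventually (e.open_source.mem_nhds hAt₁.2),
      hfc.eventually ((L.isOpen i).mem_nhds hi₁), hfc.eventually hsc] with z a1 a2 a3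
    have hAz : At e (f z) := ⟨hAt₁.1, a1⟩
    funext j
    rw [Pi.smul_apply, smul_eq_mul]
    refine Fin.cases ?_ (fun a => ?_) j
    · rw [Fin.cons_zero, mul_one]
    · rw [Fin.cons_succ]
      show F z a.succ = F z 0 * ((s a.succ).f i (e.symm (e (f z))) / (s 0).f i (e.symm (e (f z))))
      rw [hFe z i e hAz a2, hFe z i e hAz a2, hAz.left_inv]
      field_simp
  have hF00 : F 0 0 ≠ 0 := by
    have hAf : At e (f 0) := by rw [hf0]; exact hAt₁
    have hif : f 0 ∈ L.U i := by rw [hf0]; exact hi₁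
    rw [hFe 0 i e hAf hif 0]
    refine mul_ne_zero (by rw [hf0]; exact hs01) (pow_ne_zero _ ?_)
    rw [het, hnf.self_of_nhds]
    refine mul_ne_zero hU1 ?_
    have h8 : (Matrix.of fun a b : Fin (r + 1) => fderiv ℂ (rb s i e) (e (Φ ζ₁))
        (fderiv ℂ (fun z' => e (f z')) 0 (Pi.single b 1)) a) = 1 := by
      ext a b
      rw [Matrix.of_apply, Matrix.one_apply]
      have h9 : fderiv ℂ t 0 = (fderiv ℂ (rb s i e) (e (f 0))).comp
          (fderiv ℂ (fun z' => e (f z')) 0) := by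
        refine fderiv_comp 0 (g := rb s i e) (f := fun z => e (f z)) ?_
          (hfh 0 e hAf).differentiableAt
        rw [het]; exact hban.differentiableAt
      rw [ht0, het] at h9
      have h10 := congrArg (fun T : Cm (r + 1) →L[ℂ] Cm (r + 1) => T (Pi.single b 1) a) h9
      simp only [ContinuousLinearMap.comp_apply, ContinuousLinearMap.id_apply] at h10
      rw [← h10, Pi.single_apply]
    rw [h8, Matrix.det_one]
    exact one_ne_zero
  refine ⟨f, F, hf, hFa, hFe, fun h => hF00 (by rw [h]; rfl), ?_, i, e, by rw [hf0]; exact hAt₁,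
    by rw [hf0]; exact hi₁, by rw [hf0]; exact hφ₁, by rw [hf0]; exact hs01, by rw [hf0]; exact hli⟩
  refine LF_cons (h := fun z => F z 0) (t := t) hev ?_ hta.differentiableAt hF00 ?_
  · exact (analyticAt_pi_iff.1 (hFa 0) 0).differentiableAt
  · rw [ht0]; exact Function.surjective_id

end Vale.Agent.P284.H500.D
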